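import Vale.Agent.P242W.Rows

/-!
# P242W (13): row PT, the pointwise inequality by weights
-/

open MeasureTheory Set Filter Topology unitInterval
open scoped ENNReal NNReal

universe u

namespace Vale.Agent.P242W13

open Vale.Agent.P242W
open P233.Met (RSlope Good)

variable {X : Type u} [MetricSpace X] [MeasurableSpace X]

/-- relaxed slopes pass to measures bounded by a multiple -/
theorem rSlope_of_le {m m' : Measure X} {c : ℝ≥0∞} (hc : c ≠ ∞) (h : m ≤ c • m') {f S : X → ℝ}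
    (hS : RSlope m' f S) : RSlope m f S := by
  obtain ⟨hf, hG, u, g, hug, h1, h2⟩ := hS
  have hac : m ≪ m' := Measure.absolutelyContinuous_of_le_smul h
  have key : ∀ w : ℕ → X → ℝ, Tendsto (fun k => eLpNorm (w k) 2 m') atTop (𝓝 0) →
      Tendsto (fun k => eLpNorm (w k) 2 m) atTop (𝓝 0) := by
    intro w hw
    have hc' : c ^ (1 / (2 : ℝ≥0∞)).toReal ≠ ∞ :=
      ENNReal.rpow_ne_top_of_nonneg ENNReal.toReal_nonneg hc
    have h3 := ENNReal.Tendsto.const_mul (a := c ^ (1 / (2 : ℝ≥0∞)).toReal) hw (Or.inr hc')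
    rw [mul_zero] at h3
    exact tendsto_of_tendsto_of_tendsto_of_le_of_le tendsto_const_nhds h3 (fun _ => zero_le)
      fun k => eLpNorm_le_of_measure_le_smul h
  refine ⟨hf.of_measure_le_smul hc h, hG.of_measure_le_smul hc h, u, g, fun k => ?_, key _ h1,
    key _ h2⟩
  obtain ⟨a, b, d, e⟩ := hug k
  exact ⟨a, b.of_measure_le_smul hc h, d.of_measure_le_smul hc h, hac.ae_le e⟩

omit [MetricSpace X] in
theorem sq_eLpNorm (f : X → ℝ) (m : Measure X) :
    eLpNorm f 2 m ^ (2 : ℝ) = ∫⁻ x, ‖f x‖ₑ ^ (2 : ℝ) ∂m := by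
  have h := eLpNorm_nnreal_pow_eq_lintegral (f := f) (μ := m) (p := 2) two_ne_zero
  simpa using h

/-- **row PT** -/
theorem pt [BorelSpace X] [MeasurableSpace C(I, X)] (hN : NORM X) (hR : RES X) : PT X := by
  intro m _ x R hx f G M hM hG
  obtain ⟨S₀, hS₀, -⟩ := hN m x R hx f G M hM hG
  obtain ⟨S, hS, hmin⟩ := P233.Met.exists_rmin hS₀
  refine hS.mono hG.1.2.1 ?_
  have hSm := hS.2.1.1
  have hGm := hG.1.2.1.1
  set A : Set X := {y | hGm.mk G y < hSm.mk S y} with hA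
  have hAm : MeasurableSet A :=
    measurableSet_lt hGm.stronglyMeasurable_mk.measurable hSm.stronglyMeasurable_mk.measurable
  have hfin : ∫⁻ y, ‖G y‖ₑ ^ (2 : ℝ) ∂m ≠ ∞ := by
    rw [← sq_eLpNorm]
    exact ENNReal.rpow_ne_top_of_nonneg (by norm_num) hG.1.2.1.2.ne
  have key : ∀ ε : ℝ≥0∞, ε ≠ 0 → ε ≤ 1 → ∫⁻ y in A, ‖S y‖ₑ ^ (2 : ℝ) ∂m ≤
      ∫⁻ y in A, ‖G y‖ₑ ^ (2 : ℝ) ∂m + ε * ∫⁻ y, ‖G y‖ₑ ^ (2 : ℝ) ∂m := by
    intro ε h0 h1
    have hε : ε ≠ ∞ := ne_top_of_le_ne_top ENNReal.one_ne_top h1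
    set m' : Measure X := m.restrict A + ε • m.restrict Aᶜ with hm'
    have hle : m' ≤ m := by
      conv_rhs => rw [← Measure.restrict_add_restrict_compl (μ := m) hAm]
      refine add_le_add le_rfl fun s => ?_
      rw [Measure.smul_apply, smul_eq_mul]
      exact mul_le_of_le_one_left' h1
    have hge : m ≤ ε⁻¹ • m' := by
      rw [hm', smul_add, smul_smul, ENNReal.inv_mul_cancel h0 hε, one_smul]
      conv_lhs => rw [← Measure.restrict_add_restrict_compl (μ := m) hAm]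
      refine add_le_add (fun s => ?_) le_rfl
      rw [Measure.smul_apply, smul_eq_mul]
      exact le_mul_of_one_le_left' (ENNReal.one_le_inv.2 h1)
    have : IsFiniteMeasure m' := isFiniteMeasure_of_le m hle
    have hG' : IsIntUG m' f G := hR m m' f G id hle LipschitzWith.id rfl hG
    obtain ⟨S', hS', hn⟩ := hN m' x R (ae_mono hle hx) f G M hM hG'
    have h2 := hmin S' (rSlope_of_le (ENNReal.inv_ne_top.2 h0) hge hS')
    calc ∫⁻ y in A, ‖S y‖ₑ ^ (2 : ℝ) ∂m ≤ ∫⁻ y in A, ‖S' y‖ₑ ^ (2 : ℝ) ∂m := by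
          refine lintegral_mono_ae (ae_restrict_of_ae ?_)
          filter_upwards [h2, hS.nonneg] with y a b
          refine ENNReal.rpow_le_rpow ?_ (by norm_num)
          rw [Real.enorm_eq_ofReal b, Real.enorm_eq_ofReal (b.trans a)]
          exact ENNReal.ofReal_le_ofReal a
      _ ≤ ∫⁻ y, ‖S' y‖ₑ ^ (2 : ℝ) ∂m' := lintegral_mono' (Measure.le_add_right le_rfl) le_rfl
      _ ≤ ∫⁻ y, ‖G y‖ₑ ^ (2 : ℝ) ∂m' := by
          rw [← sq_eLpNorm, ← sq_eLpNorm]
          exact ENNReal.rpow_le_rpow hn (by norm_num)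
      _ ≤ _ := by
          rw [hm', lintegral_add_measure, lintegral_smul_measure, smul_eq_mul]
          gcongr
          exact Measure.restrict_le_self
  have key2 : ∫⁻ y in A, ‖S y‖ₑ ^ (2 : ℝ) ∂m ≤ ∫⁻ y in A, ‖G y‖ₑ ^ (2 : ℝ) ∂m := by
    have h1 : Tendsto (fun k : ℕ => ∫⁻ y in A, ‖G y‖ₑ ^ (2 : ℝ) ∂m +
        ((k + 1 : ℕ) : ℝ≥0∞)⁻¹ * ∫⁻ y, ‖G y‖ₑ ^ (2 : ℝ) ∂m) atTop
        (𝓝 (∫⁻ y in A, ‖G y‖ₑ ^ (2 : ℝ) ∂m + 0 * ∫⁻ y, ‖G y‖ₑ ^ (2 : ℝ) ∂m)) :=
      tendsto_const_nhds.add (ENNReal.Tendsto.mul_const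
        (ENNReal.tendsto_inv_nat_nhds_zero.comp (tendsto_add_atTop_nat 1)) (Or.inr hfin))
    rw [zero_mul, add_zero] at h1
    refine ge_of_tendsto' h1 fun k => key _ (by simp) ?_
    rw [ENNReal.inv_le_one]
    exact_mod_cast Nat.succ_le_succ (Nat.zero_le k)
  have h0 : m A = 0 := by
    by_contra h0
    have h1 : m.restrict A ≠ 0 := fun h => h0 (Measure.restrict_eq_zero.1 h)
    refine absurd key2 (not_le.2 (lintegral_strict_mono h1
      ((hSm.enorm.pow_const _).restrict) ?_ ?_))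
    · exact ne_top_of_le_ne_top hfin (lintegral_mono' Measure.restrict_le_self le_rfl)
    · filter_upwards [ae_restrict_mem hAm, ae_restrict_of_ae hGm.ae_eq_mk,
        ae_restrict_of_ae hSm.ae_eq_mk, ae_restrict_of_ae hG.1.2.2] with y a b c e
      have h2 : G y < S y := by
        rw [b, c]
        exact a
      have e' : 0 ≤ G y := e
      refine ENNReal.rpow_lt_rpow ?_ (by norm_num)
      rw [Real.enorm_eq_ofReal e', Real.enorm_eq_ofReal (e'.trans h2.le)]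
      exact (ENNReal.ofReal_lt_ofReal_iff_of_nonneg e').2 h2
  filter_upwards [measure_eq_zero_iff_ae_notMem.1 h0, hGm.ae_eq_mk, hSm.ae_eq_mk] with y a b c
  rw [b, c]
  exact not_lt.1 a

end Vale.Agent.P242W13
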